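import Vale.Agent.P092GK.Cn
import Vale.Agent.P092GK.Dd
import Vale.Agent.P092GK.PanD
import Vale.Agent.P092GH.HM
import Vale.Agent.P092BF.Defs2
import Vale.Agent.P092TH.Mass
import Vale.Agent.P092MA.In
import Vale.Agent.P092RE.NT

/-!
P092, higher rank (helper1): the interfaces between the blocks.
-/

set_option linter.all false

open scoped InnerProductSpace ENNReal NNReal
open MeasureTheory Filter Topology ContinuousLinearMap Set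

namespace Vale.Agent.P092HR

open Vale.Agent.P092CP Vale.Agent.P092RD Vale.Agent.P092GK Vale.Agent.P092TH
open Vale.Agent.P092BF (SL Far)
open Vale.Agent.P092MA (Fam Rel D5)
open Vale.Agent.P092.RC (Cm)
open Vale.Agent.P092RD.POM (ex)

/-- all the coset spaces carry their Borel structure -/
scoped instance (priority := high) mQ {G : Type} [Group G] [TopologicalSpace G] (H : Subgroup G) :
    MeasurableSpace (G ⧸ H) := borel _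

scoped instance bQ {G : Type} [Group G] [TopologicalSpace G] (H : Subgroup G) :
    BorelSpace (G ⧸ H) := ⟨rfl⟩

variable {k : Type} [NontriviallyNormedField k] {G K : Type} [Group G] [TopologicalSpace G]
  [IsTopologicalGroup G] [LocallyCompactSpace G] [SecondCountableTopology G] [T2Space G]
  [MeasurableSpace G] [BorelSpace G] [NormedAddCommGroup K] [InnerProductSpace ℂ K]
  [CompleteSpace K] {μ : Measure G} [μ.IsHaarMeasure] {W : Set (K →L[ℂ] K)} {r : ℕ}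
  {X : Type} [NormedAddCommGroup X] [NormedSpace ℝ X]

/-- the space `𝔞` -/
abbrev Aa (r : ℕ) : Type := Fin r → ℝ

/-- the full flag space -/
abbrev YY (F : FlD k G r) : Type := F.Y Finset.univ

/-- the minimal parabolic subgroup -/
abbrev PP (F : FlD k G r) : Subgroup G := F.P Finset.univ

/-- the group `M U⁺` -/
abbrev NN (F : FlD k G r) : Subgroup G := F.N Finset.univ

/-- the full cone -/
abbrev ZZ (F : FlD k G r) : Type := G ⧸ NN F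

/-- the group side -/
structure Gr (F : FlD k G r) : Prop where
  fl : Fl F
  pan : ∃ s N τ w, Pan F s N τ w
  gen : P092GH.Gp F = ⊤
  cen : Subgroup.center G = ⊥
  kaz : P092.UN.KazT G
  two : 2 ≤ r

/-- the lengths of the elements of `Z` form a lattice -/
def Lat (F : FlD k G r) : Prop :=
  ∃ e : Module.Basis (Fin r) ℝ (Aa r), ∀ x, (∃ z ∈ F.Z, F.ℓ z = x) ↔ ∀ i, ∃ m : ℤ, e.repr x i = m

/-- the boundary calculus: projection valued, covariant, invariant under the minimal parabolic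
subgroup of the source -/
structure Eb (F : FlD k G r) (C : Cpl μ μ W) (E : POM (YY F) K) : Prop where
  isP : E.IsP
  inv : Inv C (PP F) E

/-- **The output of phase one** -/
structure P1 (F : FlD k G r) (C : Cpl μ μ W) (z : ℕ → G) (L : Aa r →ₗ[ℝ] Aa r) (kl : G → G)
    (E : POM (YY F) K) : Prop where
  eb : Eb F C E
  kak : ∃ Q t kr, Kak F Q kl t kr
  dom : ∀ n, F.Dom (z n)
  cen : ∀ n, ∀ a ∈ F.Z, z n * a = a * z n
  top : ∀ i, Tendsto (fun n => F.ℓ (z n) i) atTop atTop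
  sl : ∀ f : C(YY F, ℂ), SL C (fun n => (z n)⁻¹) (C.t.m fun x => f (kl x : YY F)) (E.f f)
  wall : ∀ τ, SL C (fun n => (z n)⁻¹) (C.t.P (Far F.κ τ)ᶜ) 0
  tight : ∀ Q, IsCompact Q → ∀ ε : ℝ, 0 < ε → ∃ R, ∀ a ∈ F.Z, ∀ᶠ n in atTop, ∀ q ∈ Q,
    ‖C.t.P {x | R < ‖F.κ x - L (F.ℓ (a * z n))‖} (C.s.π (q * (a * z n)⁻¹ * F.n₀) C.t.Ω)‖ ≤ ε

/-- the volume inequality along the path -/
structure Vol (F : FlD k G r) (z : ℕ → G) (L : Aa r →ₗ[ℝ] Aa r) : Prop where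
  far : ∀ i, Tendsto (fun n => L (F.ℓ (z n)) i) atTop atTop
  vol : ∃ n, (∀ i, 0 < L (F.ℓ (z n)) i) ∧ F.ρ (F.ℓ (z n)) ≤ F.ρ (L (F.ℓ (z n)))

/-- the graded spaces: the operators which look like `exp (i s τ(height))` -/
def Xt (F : FlD k G r) (C : Cpl μ μ W) (E : POM (YY F) K) (τ : Aa r →ₗ[ℝ] ℝ) (s : ℝ) :
    Set (K →L[ℂ] K) := Xm C F.Up E fun g => ex s fun y => τ (F.cc g⁻¹ y)

/-- **The limit of the windows** on the full cone -/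
structure T0 (F : FlD k G r) (C : Cpl μ μ W) (z : ℕ → G) (L : Aa r →ₗ[ℝ] Aa r)
    (E : POM (YY F) K) (θ₀ : POM (ZZ F) K) : Prop where
  lm : ∃ (U : Ultrafilter ℕ) (B V : Set G) (w : ℕ → G) (D : ℝ), (U : Filter ℕ) ≤ atTop ∧ Bp μ B ∧
    Bp μ V ∧ (∀ n, w n ∈ F.Z ∧ ‖F.ℓ (w n) - L (F.ℓ (z n))‖ ≤ D) ∧
      Lm C U (fun n => un μ B (z n)) V (fun n => (((w n)⁻¹ : G) : ZZ F)) θ₀
  inv : Inv C F.Up θ₀
  mod : ∀ φ f, Bd φ → Bd f → θ₀.f (φ ∘ F.dir _ _ * f) = E.f φ * θ₀.f f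
  ne : θ₀.f 1 ≠ 0
  mem : ∀ (τ : Aa r →ₗ[ℝ] ℝ) s, θ₀.f (ex s fun ζ => τ (F.hq _ .id ζ)) ∈ Xt F C E τ s
  uni : ∀ τ, ∃ u : ℝ → K →L[ℂ] K, P092SB.OP u ∧
    ∀ s, u s ∈ Xt F C E τ s ∧ ∀ a ∈ Xt F C E τ s, ∃ c : ℂ, a = c • u s
  spd : ∀ τ s, ∀ p ∈ PP F, ∀ a ∈ Xt F C E τ s,
    C.s.π p * a * C.s.π p⁻¹ = Complex.exp (s * τ (L (F.ℓ p)) * Complex.I) • a
  mv : ∀ p ∈ PP F, ∀ q ∈ PP F, F.ℓ q = L (F.ℓ p) → ∀ f, Bd f →
    C.s.π p * θ₀.f f * C.s.π p⁻¹ = θ₀.f (f ∘ rt _ q)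
  desc : ∀ (A : Set (YY F)) (S : Set (ZZ F)), IsCompact A → IsCompact S → A ×ˢ S ⊆ F.Op _ _ →
    ∃ c : ℝ≥0∞, c ≠ ∞ ∧ ∀ Ψ : POM (YY F) K, (∀ φ, Bd φ → Cm W (Ψ.f φ)) → Cov C.t.π Ψ →
      tq C.t (θ₀.P S) (Ψ.P A) ≤ c

/-- the speed is an automorphism which commutes with the opposition and preserves the lengths -/
structure Sp (F : FlD k G r) (L : Aa r →ₗ[ℝ] Aa r) : Prop where
  inj : Function.Injective L
  opp : ∀ x, L (x ∘ F.ι) = L x ∘ F.ι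
  lat : ∀ p ∈ F.Z, ∃ q ∈ F.Z, F.ℓ q = L (F.ℓ p)

/-- a pair of cones: `G ⧸ H` for the source, `G ⧸ H'` for the target -/
structure Cs (F : FlD k G r) (L : Aa r →ₗ[ℝ] Aa r) (H H' : Subgroup G) (t : Aa r →ₗ[ℝ] X) :
    Prop where
  src : F.Ht H (t ∘ₗ L)
  tgt : F.Ht H' t
  rho : ∀ x, t (L x) = 0 → F.ρ x = 0
  opp : ∀ x, t x = 0 → t (x ∘ F.ι) = 0
  prp : F.Prp (t ∘ₗ L)
  prp' : F.Prp t
  pos : F.Pos (t ∘ₗ L)

/-- **The projection valued heights** on the cone `G ⧸ H'` -/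
structure Tx (F : FlD k G r) (C : Cpl μ μ W) (L : Aa r →ₗ[ℝ] Aa r) (E : POM (YY F) K)
    (H' : Subgroup G) (t : Aa r →ₗ[ℝ] X) (θ : POM (G ⧸ H') K) : Prop where
  isP : θ.IsP
  inv : Inv C F.Up θ
  dir : ∀ φ, Bd φ → θ.f (φ ∘ F.dir _ _) = E.f φ
  mem : ∀ (τ : X →ₗ[ℝ] ℝ) s, θ.f (ex s fun ζ => τ (F.hq H' t ζ)) ∈ Xt F C E (τ ∘ₗ t) s
  mv : ∀ p ∈ PP F, ∀ q ∈ PP F, t (F.ℓ q) = t (L (F.ℓ p)) → ∀ f, Bd f →
    C.s.π p * θ.f f * C.s.π p⁻¹ = θ.f (f ∘ rt _ q)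

/-- the family of the translates of `θ` -/
structure Fm (C : Cpl μ μ W) {H H' : Subgroup G} (θ : POM (G ⧸ H') K)
    (ϑ : G ⧸ H → POM (G ⧸ H') K) : Prop where
  fam : Fam C ϑ
  isP : ∀ z, (ϑ z).IsP
  base : ∀ (g : G) f, Bd f → (ϑ (g : G ⧸ H)).f f = C.s.π g * θ.f f * C.s.π g⁻¹

/-- **REL** for a pair of cones -/
def RelC (F : FlD k G r) (L : Aa r →ₗ[ℝ] Aa r) {H H' : Subgroup G} (t : Aa r →ₗ[ℝ] X)
    (ϑ : G ⧸ H → POM (G ⧸ H') K) (c : X) : Prop :=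
  Rel ϑ (F.Op H H) (fun q => F.dd H (t ∘ₗ L) q + c) (F.Op H' H') (F.dd H' t)

/-- the invariant measure of the source cone -/
structure Nu (F : FlD k G r) (μ : Measure G) (H : Subgroup G) (ν : Measure (G ⧸ H)) : Prop where
  qm : ∃ η, Qm μ H η (fun g => (g : G ⧸ H)) ν
  fin : IsFiniteMeasureOnCompacts ν
  pos : ν.IsOpenPosMeasure
  inv : SMulInvariantMeasure G (G ⧸ H) ν
  ne : ν ≠ 0
  map : ∀ p ∈ PP F, P092GK.eo (F.ρ (F.ℓ p)) • ν.map (rt H p) = ν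

/-- finite trace per unit volume of `H` -/
def Fn (C : Cpl μ μ W) (H : Subgroup G) {Z : Type} [TopologicalSpace Z] [MeasurableSpace Z]
    (θ : POM Z K) : Prop :=
  ∀ η, Hm H η → ∀ S, IsCompact S → ∃ c : ℝ≥0∞, c ≠ ∞ ∧ ∀ y, Cm W y →
    P092RE.Up C.s η (fun g => g⁻¹) y 1 → C.t.Tr (θ.P S * adjoint y) ≤ c

/-- the two calculi commute -/
def Rad {Z Z' : Type} [MeasurableSpace Z] [MeasurableSpace Z'] (θ₀ : POM Z K) (θ : POM Z' K) :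
    Prop := ∀ f f', Bd f → Bd f' → θ₀.f f * θ.f f' = θ.f f' * θ₀.f f

/-- **One side**, after `c = 1`: the same cone `G ⧸ H` for the source and for the target
(`H = N`, `t = id`, or `H = Hw (ker ρ)`, `t = ρ`) -/
structure Sd (F : FlD k G r) (C : Cpl μ μ W) (L : Aa r →ₗ[ℝ] Aa r) (E : POM (YY F) K)
    (θ₀ : POM (ZZ F) K) (H : Subgroup G) (t : Aa r →ₗ[ℝ] X) (θ : POM (G ⧸ H) K) : Prop where
  eb : Eb F C E
  t0 : ∃ z, T0 F C z L E θ₀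
  sp : Sp F L
  rho : ∀ x, F.ρ (L x) = F.ρ x
  cs : Cs F L H H t
  tx : Tx F C L E H t θ
  reg : ∃ a ∈ F.Z, (∀ i, 0 < F.ℓ a i) ∧ ∀ i, 0 < L (F.ℓ a) i
  fin : Fn C H θ
  rad : Rad θ₀ θ
  ma : ∃ (ϑ : G ⧸ H → POM (G ⧸ H) K) (ν ν' : Measure (G ⧸ H)) (c : X),
    Fm C θ ϑ ∧ Nu F μ H ν ∧ D5 C ν ϑ ν' ∧ RelC F L t ϑ c

/-- nondegeneracy -/
def Nd (F : FlD k G r) (C : Cpl μ μ W) (E : POM (YY F) K) : Prop :=
  ∀ U, IsOpen U → U.Nonempty → ∀ ξ, ξ ≠ 0 → ∃ g, E.P U (C.s.π g ξ) ≠ 0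

/-- the translates of the calculus commute -/
def Com (C : Cpl μ μ W) {Z : Type} [MeasurableSpace Z] (θ : POM Z K) : Prop :=
  ∀ g f f', Bd f → Bd f' →
    θ.f f * (C.s.π g * θ.f f' * C.s.π g⁻¹) = (C.s.π g * θ.f f' * C.s.π g⁻¹) * θ.f f

/-- uniqueness of the boundary calculus -/
def Uq (F : FlD k G r) (C : Cpl μ μ W) (E : POM (YY F) K) : Prop :=
  ∀ Ψ : POM (YY F) K, Inv C F.Up Ψ → Ψ.f 1 = 1 → ∀ φ, Bd φ → Ψ.f φ = E.f φ

/-- the input of the real case -/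
def SepR (F : FlD k G r) : Prop :=
  ∀ (H : Subgroup G) (ℓ : G ⧸ H → ℝ) (U : Set (G ⧸ H)) (n : G), F.Ht H F.ρ → Measurable ℓ →
    (∀ g : G, (g : G ⧸ H) ∈ U ↔ n * g ∈ F.Ω) → (∀ g : G, n * g ∈ F.Ω → ℓ g = F.ρ (F.ℓ (n * g))) →
      Nonempty (Sep G ℓ U ℕ)

end Vale.Agent.P092HR
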