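import Vale.Agent.P092NW.T0
import Vale.Agent.P092CT.RelC
import Vale.Agent.P092CT.Td
import Vale.Agent.P092FV.Fl
import Vale.Agent.P092BF.P1
import Vale.Agent.P092GK.VolH
import Vale.Agent.P092GK.LiftR
import Vale.Agent.P092ND.Nd
import Vale.Agent.P092LT.Lat
import Vale.Agent.P092LT.Lift
import Vale.Agent.P092C1.C1
import Vale.Agent.P092UQ.Sd
import Vale.Agent.P092RH.ComR

/-!
P092, higher rank (helper1): the assembly.
-/

set_option linter.all false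

open scoped InnerProductSpace ENNReal NNReal
open MeasureTheory Filter Topology ContinuousLinearMap Set

namespace Vale.Agent.P092HR

open Vale.Agent.P092CP Vale.Agent.P092RD Vale.Agent.P092GK Vale.Agent.P092TH
open Vale.Agent.P092MA (Fam Rel D5 exists_fam)
open Vale.Agent.P092.RC (Cm)
open Vale.Agent.P092RD.POM (ex)
open Vale.Agent.P092LT (lat_td inj_td lift_td)
open Vale.Agent.P092FV (rad_r rad_td d5i)
open Vale.Agent.P092CT (iota_c rel_c com_ac AC)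
open Vale.Agent.P092RK (CORE)
open Vale.Agent.P092C1 (c1)
open Vale.Agent.P092RH (com_r)

variable {k : Type} [NontriviallyNormedField k] [ProperSpace k] {G K : Type} [Group G]
  [TopologicalSpace G] [IsTopologicalGroup G] [LocallyCompactSpace G] [SecondCountableTopology G]
  [T2Space G] [MeasurableSpace G] [BorelSpace G] [NormedAddCommGroup K] [InnerProductSpace ℂ K]
  [CompleteSpace K] {μ : Measure G} [μ.IsHaarMeasure] {W : Set (K →L[ℂ] K)} {r : ℕ}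
  {X : Type} [NormedAddCommGroup X] [NormedSpace ℝ X] {F : FlD k G r} {C : Cpl μ μ W} {z : ℕ → G}
  {L L' : Aa r →ₗ[ℝ] Aa r} {kl : G → G} {E E' : POM (YY F) K} {θ₀ θ₀' : POM (ZZ F) K}
  {H H' : Subgroup G} {t : Aa r →ₗ[ℝ] X} {θ : POM (G ⧸ H') K} {ϑ : G ⧸ H → POM (G ⧸ H') K} {c : X}
  {ν : Measure (G ⧸ H)} {ν' : Measure (G ⧸ H')} {A : Aa r → G}

theorem exists_fm (h : Fl F) (cs : Cs F L H H' t) (x : Tx F C L E H' t θ) :
    ∃ ϑ : G ⧸ H → POM (G ⧸ H') K, Fm C θ ϑ := by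
  haveI := h.Ht_cl cs.src
  haveI := h.Ht_cl cs.tgt
  obtain ⟨ϑ, h1, h2, h3⟩ := exists_fam C ((1 : G) : G ⧸ H) x.inv.cm x.inv.cov fun g hg f hf => by
    have h4 : g ∈ H := by
      have := QuotientGroup.eq.1 (show ((1 : G) : G ⧸ H) = ((g * 1 : G) : G ⧸ H) from hg.symm)
      rwa [inv_one, one_mul, mul_one] at this
    rw [x.mv g (cs.src.le h4) 1 (one_mem _)
      (by rw [h.ℓ_one, map_zero]; exact ((cs.src g).1 h4).2.symm) f hf]
    exact congrArg _ (funext fun y => congrArg f (rt_of_mem H'.one_mem y))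
  exact ⟨ϑ, h1, h2 x.isP, fun g f hf => by rw [← h3 g f hf, mk_smul, mul_one]⟩

theorem exists_nu (h : Fl F) [μ.IsMulRightInvariant] (cs : Cs F L H H' t) : ∃ ν, Nu F μ H ν := by
  obtain ⟨η, ν, h1, h2, h3, h4, h5, h6⟩ := h.exists_cone μ cs.src cs.rho
  exact ⟨ν, ⟨η, h1⟩, h3, h2, h4, h5, h6⟩

theorem cs_td (h : Fl F) (s : Sp F L) : Cs F L (NN F) (NN F) .id where
  src p := (h.Ht_N p).trans (and_congr_right fun _ => (map_eq_zero_iff L s.inj).symm)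
  tgt := h.Ht_N
  rho x e := by rw [(map_eq_zero_iff L s.inj).1 e, map_zero]
  opp x e := by rw [show x = 0 from e]; rfl
  prp := h.prp_inj s.inj
  prp' := h.prp_inj Function.injective_id
  pos := h.pos_inj s.inj

theorem cs_r (h : Fl F) (μ : Measure G) [μ.IsHaarMeasure] [μ.IsMulRightInvariant] (hA : Tor F A)
    (s : Sp F L) {t : Aa r →ₗ[ℝ] ℝ} (e : ∀ x, t (L x) = F.ρ x) :
    Cs F L (h.Hw (LinearMap.ker F.ρ)) (h.Hw (LinearMap.ker t)) t := by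
  have e1 : t ∘ₗ L = F.ρ := LinearMap.ext e
  refine ⟨e1 ▸ h.ht_Hw _, h.ht_Hw _, fun x => by rw [e]; exact id, fun x hx => ?_,
    h.prp_surj hA.surj _, h.prp_surj hA.surj _, e1 ▸ h.pos_ρ μ⟩
  obtain ⟨y, rfl⟩ := LinearMap.injective_iff_surjective.1 s.inj x
  rw [← s.opp, e, h.ρ_ι μ, ← e, hx]

theorem stage [FiniteDimensional ℝ X] (hc : CORE C (YY F) (YY F) (ZZ F)) (g : Gr F)
    (p : P1 F C z L kl E) (v : Vol F z L) (T : T0 F C z L E θ₀) (s : Sp F L) (cs : Cs F L H H' t) (x : Tx F C L E H' t θ) :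
    (∀ x, F.ρ (L x) = F.ρ x) ∧ Fn C H θ ∧ ∃ (ϑ : G ⧸ H → POM (G ⧸ H') K) (ν : Measure (G ⧸ H))
      (ν' : Measure (G ⧸ H')) (c : X), Fm C θ ϑ ∧ Nu F μ H ν ∧ D5 C ν ϑ ν' ∧ RelC F L t ϑ c := by
  haveI := C.s.right
  obtain ⟨ϑ, f⟩ := exists_fm g.fl cs x
  obtain ⟨ν, n⟩ := exists_nu (μ := μ) g.fl cs
  obtain ⟨c, R⟩ := rel_c hc g p T s cs x f
  obtain ⟨⟨ν', d⟩, fn⟩ := d5i g p v T s cs x f R n
  exact ⟨c1 g s cs x f n d, fn, ϑ, ν, ν', c, f, n, d, R⟩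

theorem reg (p : P1 F C z L kl E) (v : Vol F z L) :
    ∃ a ∈ F.Z, (∀ i, 0 < F.ℓ a i) ∧ ∀ i, 0 < L (F.ℓ a) i := by
  obtain ⟨n, h1, h2⟩ := ((eventually_all.2 fun i => (p.top i).eventually_gt_atTop 0).and
    (eventually_all.2 fun i => (v.far i).eventually_gt_atTop 0)).exists
  exact ⟨_, (p.dom n).1, h1, h2⟩

theorem side_td (g : Gr F) (l : Lat F) (C : Cpl μ μ W) (hc : CORE C (YY F) (YY F) (ZZ F)) :
    ∃ L E θ₀ θ,
    Sd F C L E θ₀ (NN F) (.id : Aa r →ₗ[ℝ] Aa r) θ := by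
  obtain ⟨z, L, kl, E, p⟩ := p1 g C
  have v := vol g p
  obtain ⟨θ₀, T⟩ := t0 g p v
  have h1 := lat_td g l p.eb T
  have s : Sp F L := ⟨inj_td l h1 (inj g p.eb T), iota_c hc g p T, h1⟩
  obtain ⟨θ, x⟩ := lift_td g l p.eb T
  obtain ⟨a, b, c⟩ := stage hc g p v T s (cs_td g.fl s) x
  exact ⟨L, E, θ₀, θ, ⟨p.eb, ⟨z, T⟩, s, a, cs_td g.fl s, x, reg p v, b, rad_td g p.eb T x, c⟩⟩

theorem side_r (g : Gr F) (hA : Tor F A) (C : Cpl μ μ W) (hc : CORE C (YY F) (YY F) (ZZ F)) :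
    ∃ L E θ₀ θ,
    Sd F C L E θ₀ (g.fl.Hw (LinearMap.ker F.ρ)) F.ρ θ := by
  haveI := C.s.right
  obtain ⟨z, L, kl, E, p⟩ := p1 g C
  have v := vol g p
  obtain ⟨θ₀, T⟩ := t0 g p v
  have s : Sp F L := ⟨(injective_iff_map_eq_zero L).2 fun x hx => by
    obtain ⟨a, ha, rfl⟩ := hA.surj x
    exact inj g p.eb T a ha hx, iota_c hc g p T, fun p _ => hA.surj _⟩
  have h0 : ∀ t : Aa r →ₗ[ℝ] ℝ, (∀ x, t (L x) = F.ρ x) → t ≠ 0 := fun t e e0 =>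
    (g.fl.ρ_single_pos μ ⟨0, lt_of_lt_of_le two_pos g.two⟩).ne' (by rw [← e, e0]; rfl)
  have a : ∀ x, F.ρ (L x) = F.ρ x := by
    let e := LinearEquiv.ofInjectiveEndo L s.inj
    have h1 : ∀ x, (F.ρ ∘ₗ (e.symm : Aa r →ₗ[ℝ] Aa r)) (L x) = F.ρ x := fun x =>
      congrArg F.ρ (e.symm_apply_apply x)
    obtain ⟨θ, x⟩ := lift_r g hA p.eb T (g.fl.ht_Hw _) (h0 _ h1)
    exact (stage hc g p v T s (cs_r g.fl μ hA s h1) x).1
  have cs := cs_r g.fl μ hA s a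
  obtain ⟨θ, x⟩ := lift_r g hA p.eb T cs.tgt (h0 _ a)
  obtain ⟨-, b, c⟩ := stage hc g p v T s cs x
  exact ⟨L, E, θ₀, θ, ⟨p.eb, ⟨z, T⟩, s, a, cs, x, reg p v, b, rad_r g hA p.eb T s cs x b a, c⟩⟩

/-- **Higher rank** -/
theorem over_of (ac : AC) (g : Gr F)
    (hc : ∀ (K : Type) [NormedAddCommGroup K] [InnerProductSpace ℂ K] [CompleteSpace K]
      (W : Set (K →L[ℂ] K)) (C : Cpl (Measure.haar : Measure G) (Measure.haar : Measure G) W),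
      CORE C (YY F) (YY F) (ZZ F))
    (h : (P092GB.TD G ∧ Lat F) ∨ ((∃ A, Tor F A) ∧ SepR F)) : P092.H678.OV.OverStmt G := by
  rcases h with ⟨td, l⟩ | ⟨⟨A, hA⟩, s⟩
  · refine P092UQ.over_of_sd (μ := Measure.haar) (H := NN F) (t := (.id : Aa r →ₗ[ℝ] Aa r)) g
      fun K _ _ _ W C => ?_
    obtain ⟨L, E, θ₀, θ, a⟩ := side_td g l C (hc K W C)
    exact ⟨L, E, θ₀, θ, a, nd g a.eb, com_ac ac g td a⟩
  · refine P092UQ.over_of_sd (μ := Measure.haar) (H := g.fl.Hw (LinearMap.ker F.ρ)) (t := F.ρ) g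
      fun K _ _ _ W C => ?_
    obtain ⟨L, E, θ₀, θ, a⟩ := side_r g hA C (hc K W C)
    obtain ⟨L', E', θ₀', θ', b⟩ := side_r g hA C.swap (hc K _ C.swap)
    exact ⟨L, E, θ₀, θ, a, nd g a.eb, com_r g s a b⟩

end Vale.Agent.P092HR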